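import Mathlib

/-!
# P021: the saddle point

The critical points come from the roots of `37 w³ + 9 w² - 814 w + 1408`, `w = z + 2 / z`.
-/

namespace Vale.Agent.P021Pi.Analytic

open Complex

/-- A rational approximation of the saddle. -/
noncomputable def c0 : ℂ := ⟨1.4264539087, 0.5816275874⟩

/-- The logarithmic derivative of the integrand. -/
noncomputable def dlog (z : ℂ) : ℂ :=
  56 / (z - (1 + I)) + 56 / (z - (1 - I)) + 92 / (z - 1) + 92 / (z - 2) - 74 / z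
    - 74 / (z - (Real.sqrt 2 : ℂ)) - 74 / (z + (Real.sqrt 2 : ℂ))

theorem exists_cubic_root :
    ∃ w : ℂ, |w.re - 2.6286595543| ≤ 1e-8 ∧ |w.im - 0.0914358154| ≤ 1e-8 ∧
      37 * w ^ 3 + 9 * w ^ 2 - 814 * w + 1408 = 0 := by
  obtain ⟨r, hr, hP⟩ : ∃ r ∈ Set.Icc (-5.5005623520 : ℝ) (-5.5005623518),
      37 * r ^ 3 + 9 * r ^ 2 - 814 * r + 1408 = 0 :=
    intermediate_value_Icc (by norm_num) (by fun_prop)
      (by constructor <;> norm_num)
  obtain ⟨hr0, hr1⟩ := hr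
  have hrne : r ≠ 0 := by linarith
  set α : ℝ := -(r + 9 / 37) / 2 with hα
  set q : ℝ := 1408 / (37 * -r) with hq
  have hq0 : 1408 / (37 * 5.5005623520) ≤ q ∧ q ≤ 1408 / (37 * 5.5005623518) := by
    constructor <;> (rw [hq]; gcongr <;> linarith)
  have hα0 : 2.6286595542 ≤ α ∧ α ≤ 2.6286595544 := by
    norm_num at hr0 hr1
    constructor <;> (rw [hα]; norm_num; linarith)
  have hd : 0.0914358054 ^ 2 ≤ q - α ^ 2 ∧ q - α ^ 2 ≤ 0.0914358254 ^ 2 := by
    have h1 : α ^ 2 ≤ 2.6286595544 ^ 2 := pow_le_pow_left₀ (by linarith [hα0.1]) hα0.2 2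
    have h2 : 2.6286595542 ^ 2 ≤ α ^ 2 := pow_le_pow_left₀ (by norm_num) hα0.1 2
    norm_num at hq0 h1 h2
    constructor <;> norm_num <;> linarith [hq0.1, hq0.2]
  have hβ : 0.0914358054 ≤ Real.sqrt (q - α ^ 2) ∧ Real.sqrt (q - α ^ 2) ≤ 0.0914358254 :=
    ⟨Real.le_sqrt_of_sq_le hd.1, (Real.sqrt_le_iff).2 ⟨by norm_num, hd.2⟩⟩
  refine ⟨⟨α, Real.sqrt (q - α ^ 2)⟩, ?_, ?_, ?_⟩
  · rw [abs_le]
    obtain ⟨a, b⟩ := hα0
    constructor <;> norm_num at * <;> linarith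
  · rw [abs_le]
    obtain ⟨a, b⟩ := hβ
    constructor <;> norm_num at * <;> linarith
  · set β := Real.sqrt (q - α ^ 2)
    have hβ2 : β ^ 2 = q - α ^ 2 := Real.sq_sqrt (by linarith [hd.1, sq_nonneg (0.0914358054 : ℝ)])
    have hw : (⟨α, β⟩ : ℂ) = (α : ℂ) + (β : ℂ) * I := Complex.mk_eq_add_mul_I α β
    have hquad : (⟨α, β⟩ : ℂ) ^ 2 + ((r + 9 / 37 : ℝ) : ℂ) * ⟨α, β⟩ + (q : ℂ) = 0 := by
      rw [hw]
      have e1 : ((r + 9 / 37 : ℝ) : ℂ) = -2 * (α : ℂ) := by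
        rw [hα]; push_cast; ring
      have e2 : (β : ℂ) ^ 2 = (q : ℂ) - (α : ℂ) ^ 2 := by exact_mod_cast congrArg ofReal hβ2
      rw [e1]
      linear_combination (β : ℂ) ^ 2 * I_sq - e2
    have hrq : (r : ℂ) * (q : ℂ) = -(1408 / 37) := by
      rw [← ofReal_mul, hq, show r * (1408 / (37 * -r)) = -(1408 / 37) by field_simp]
      norm_num
    have hPc : 37 * (r : ℂ) ^ 3 + 9 * (r : ℂ) ^ 2 - 814 * r + 1408 = 0 := by exact_mod_cast hP
    have hqc : (q : ℂ) = -814 / 37 + (r : ℂ) ^ 2 + 9 / 37 * r := by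
      have hr' : (r : ℂ) ≠ 0 := by exact_mod_cast hrne
      apply mul_left_cancel₀ hr'
      linear_combination hrq - hPc / 37
    push_cast at hquad
    generalize (⟨α, β⟩ : ℂ) = w at hquad
    linear_combination 37 * (w - r) * hquad + 37 * hrq - 37 * w * hqc

theorem exists_saddle : ∃ c : ℂ, ‖c - c0‖ ≤ 2e-7 ∧ dlog c = 0 := by
  obtain ⟨w, hwr, hwi, hw⟩ := exists_cubic_root
  obtain ⟨s', hs'⟩ := IsAlgClosed.exists_pow_nat_eq (8 - w ^ 2) (n := 2) (by norm_num)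
  obtain ⟨s, hs, hsre⟩ : ∃ s : ℂ, s ^ 2 = 8 - w ^ 2 ∧ 0 ≤ s.re := by
    rcases le_total 0 s'.re with h | h
    · exact ⟨s', hs', h⟩
    · exact ⟨-s', by rw [neg_sq, hs'], by rw [neg_re]; linarith⟩
  set s0 : ℂ := ⟨1.0718193595, -0.2242482631⟩ with hs0
  rw [abs_le] at hwr hwi
  norm_num at hwr hwi
  have hdiff : ‖s - s0‖ * 1.07 ≤ 1.2e-7 := by
    have hfac : (s - s0) * (s + s0) = (8 - w ^ 2) - s0 ^ 2 := by rw [← hs]; ring
    have hge : (1.07 : ℝ) ≤ ‖s + s0‖ := by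
      refine le_trans ?_ (re_le_norm _)
      rw [add_re, hs0]
      norm_num
      linarith
    calc ‖s - s0‖ * 1.07 ≤ ‖s - s0‖ * ‖s + s0‖ := mul_le_mul_of_nonneg_left hge (norm_nonneg _)
      _ = ‖(8 - w ^ 2) - s0 ^ 2‖ := by rw [← norm_mul, hfac]
      _ ≤ |((8 - w ^ 2) - s0 ^ 2).re| + |((8 - w ^ 2) - s0 ^ 2).im| := norm_le_abs_re_add_abs_im _
      _ ≤ 1.2e-7 := by
        have a : |((8 - w ^ 2) - s0 ^ 2).re| ≤ 6e-8 := by
          simp only [hs0, sq, sub_re, mul_re, re_ofNat]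
          rw [abs_le]
          norm_num
          constructor <;> nlinarith
        have b : |((8 - w ^ 2) - s0 ^ 2).im| ≤ 6e-8 := by
          simp only [hs0, sq, sub_im, mul_im, im_ofNat]
          rw [abs_le]
          norm_num
          constructor <;> nlinarith
        norm_num at a b ⊢
        linarith
  have hsr := (abs_re_le_norm (s - s0)).trans (le_of_le_of_eq (le_div_iff₀ (by norm_num) |>.2 hdiff) rfl)
  have hsi := (abs_im_le_norm (s - s0)).trans (le_of_le_of_eq (le_div_iff₀ (by norm_num) |>.2 hdiff) rfl)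
  rw [abs_le, sub_re, hs0] at hsr
  rw [abs_le, sub_im, hs0] at hsi
  norm_num at hsr hsi
  set c : ℂ := (w + I * s) / 2 with hc
  have hcre : c.re = (w.re - s.im) / 2 := by simp [hc, Complex.div_ofNat_re]; ring
  have hcim : c.im = (w.im + s.re) / 2 := by simp [hc, Complex.div_ofNat_im]
  refine ⟨c, ?_, ?_⟩
  · refine (norm_le_abs_re_add_abs_im _).trans ?_
    have a : |(c - c0).re| ≤ 1e-7 := by
      simp only [sub_re, hcre, c0]
      rw [abs_le]
      constructor <;> norm_num <;> linarith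
    have b : |(c - c0).im| ≤ 1e-7 := by
      simp only [sub_im, hcim, c0]
      rw [abs_le]
      constructor <;> norm_num <;> linarith
    norm_num at a b ⊢
    linarith
  · have hq : c ^ 2 + 2 = w * c := by
      rw [hc]
      linear_combination (I ^ 2 / 4) * hs + (-(w ^ 2) / 4 + 2) * I_sq
    have hre1 : 1 < c.re := by rw [hcre]; linarith
    have him : 0.5 < c.im := by rw [hcim]; norm_num; linarith
    have hne : ∀ a : ℂ, a.im ≤ 0 → c - a ≠ 0 := fun a ha h => by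
      have := congrArg Complex.im h
      rw [sub_im, zero_im] at this
      norm_num at him
      linarith
    have n1 : c - (1 + I) ≠ 0 := fun h => by
      have := congrArg Complex.im h
      simp [hcim] at this
      linarith
    have n2 := hne (1 - I) (by simp)
    have n3 := hne 1 (by simp)
    have n4 := hne 2 (by simp)
    have n5 : c ≠ 0 := by simpa using hne 0 (by simp)
    have n6 := hne (Real.sqrt 2 : ℂ) (by simp)
    have n7 : c + (Real.sqrt 2 : ℂ) ≠ 0 := by simpa using hne (-(Real.sqrt 2 : ℂ)) (by simp)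
    have hS : (Real.sqrt 2 : ℂ) ^ 2 = 2 := by
      exact_mod_cast congrArg ofReal (Real.sq_sqrt (show (0 : ℝ) ≤ 2 by norm_num))
    have hM : 37 * (c ^ 2 + 2) ^ 3 + 9 * c * (c ^ 2 + 2) ^ 2 - 814 * c ^ 2 * (c ^ 2 + 2)
        + 1408 * c ^ 3 = 0 := by
      rw [hq]
      linear_combination c ^ 3 * hw
    have eA : 56 / (c - (1 + I)) + 56 / (c - (1 - I)) = 56 * (2 * c - 2) / (c ^ 2 - 2 * c + 2) := by
      have : c ^ 2 - 2 * c + 2 = (c - (1 + I)) * (c - (1 - I)) := by linear_combination I_sq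
      rw [this, div_add_div _ _ n1 n2]
      congr 1
      ring
    have eS : 74 / (c - (Real.sqrt 2 : ℂ)) + 74 / (c + (Real.sqrt 2 : ℂ)) =
        74 * (2 * c) / (c ^ 2 - 2) := by
      rw [div_add_div _ _ n6 n7]
      congr 1
      · ring
      · linear_combination -hS
    have d1 : c ^ 2 - 2 * c + 2 ≠ 0 := by
      rw [show c ^ 2 - 2 * c + 2 = (c - (1 + I)) * (c - (1 - I)) by linear_combination I_sq]
      exact mul_ne_zero n1 n2
    have d2 : c ^ 2 - 2 ≠ 0 := by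
      rw [← hS, show c ^ 2 - (Real.sqrt 2 : ℂ) ^ 2 = (c - (Real.sqrt 2 : ℂ)) * (c + (Real.sqrt 2 : ℂ))
        by ring]
      exact mul_ne_zero n6 n7
    rw [dlog, eA, sub_sub (_ - 74 / c), eS]
    clear_value c
    obtain ⟨u, hu⟩ : ∃ u, u = c ^ 2 - 2 * c + 2 := ⟨_, rfl⟩
    obtain ⟨v, hv⟩ : ∃ v, v = c ^ 2 - 2 := ⟨_, rfl⟩
    rw [← hu, ← hv]
    rw [← hu] at d1
    rw [← hv] at d2
    field_simp
    rw [hu, hv]
    linear_combination 2 * hM

end Vale.Agent.P021Pi.Analytic
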