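import Vale.Agent.P021Pi.Analytic.Profile
import Vale.Agent.P021Pi.Analytic.Saddle

/-!
# P021: concavity of the logarithm of the integrand on the two segments
-/

namespace Vale.Agent.P021Pi.Analytic

open Complex Set

/-- The zeros and poles of the integrand. -/
noncomputable def pts : Fin 7 → ℂ :=
  ![1 + I, 1 - I, 1, 2, 0, (Real.sqrt 2 : ℂ), -(Real.sqrt 2 : ℂ)]

/-- Their multiplicities. -/
def mult : Fin 7 → ℤ := ![56, 56, 92, 92, -74, -74, -74]

/-- The data of the segment from `c` to `e`. -/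
noncomputable def pp (c e : ℂ) (i : Fin 7) : ℂ := (pts i - c) / (e - c)

/-- The summand of the second derivative. -/
noncomputable def kap (p : ℂ) (s : ℝ) : ℝ :=
  (p.im ^ 2 - (s - p.re) ^ 2) / ((s - p.re) ^ 2 + p.im ^ 2) ^ 2

/-- The least square on an interval. -/
noncomputable def minSq (x0 x1 : ℝ) : ℝ := (max (max x0 (-x1)) 0) ^ 2

/-- The largest square on an interval. -/
noncomputable def maxSq (x0 x1 : ℝ) : ℝ := max (x0 ^ 2) (x1 ^ 2)

/-- Upper bound for `kap` on a piece. -/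
noncomputable def kapUp (u0 v0 d l r : ℝ) : ℝ :=
  max (((|v0| + d) ^ 2 - minSq (l - u0 - d) (r - u0 + d)) /
      (minSq (l - u0 - d) (r - u0 + d) + (|v0| - d) ^ 2) ^ 2)
    (((|v0| + d) ^ 2 - minSq (l - u0 - d) (r - u0 + d)) /
      (maxSq (l - u0 - d) (r - u0 + d) + (|v0| + d) ^ 2) ^ 2)

/-- Lower bound for `kap` on a piece. -/
noncomputable def kapDown (u0 v0 d l r : ℝ) : ℝ :=
  min (((|v0| - d) ^ 2 - maxSq (l - u0 - d) (r - u0 + d)) /
      (minSq (l - u0 - d) (r - u0 + d) + (|v0| - d) ^ 2) ^ 2)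
    (((|v0| - d) ^ 2 - maxSq (l - u0 - d) (r - u0 + d)) /
      (maxSq (l - u0 - d) (r - u0 + d) + (|v0| + d) ^ 2) ^ 2)

theorem kap_mem (u0 v0 : ℝ) {d : ℝ} {p : ℂ} (hp : ‖p - ⟨u0, v0⟩‖ ≤ d) (hd : d < |v0|)
    {l r s : ℝ} (hl : l ≤ s) (hr : s ≤ r) :
    kap p s ≤ kapUp u0 v0 d l r ∧ kapDown u0 v0 d l r ≤ kap p s := by
  have hu := (abs_re_le_norm _).trans hp
  have hv := (abs_im_le_norm _).trans hp
  simp only [sub_re, sub_im] at hu hv
  rw [abs_le] at hu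
  have hv0 : |v0| - d ≤ |p.im| ∧ |p.im| ≤ |v0| + d := by
    have h1 := abs_sub_abs_le_abs_sub p.im v0
    have h2 := abs_sub_abs_le_abs_sub v0 p.im
    rw [abs_sub_comm] at h2
    constructor <;> linarith
  have hY0 : (|v0| - d) ^ 2 ≤ p.im ^ 2 := by
    rw [← sq_abs p.im]
    exact pow_le_pow_left₀ (by linarith) hv0.1 2
  have hY1 : p.im ^ 2 ≤ (|v0| + d) ^ 2 := by
    rw [← sq_abs p.im]
    exact pow_le_pow_left₀ (abs_nonneg _) hv0.2 2
  have hC : 0 < (|v0| - d) ^ 2 := pow_pos (by linarith) 2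
  set x := s - p.re
  have hx0 : l - u0 - d ≤ x := by simp only [x]; linarith
  have hx1 : x ≤ r - u0 + d := by simp only [x]; linarith
  have hA0 : 0 ≤ minSq (l - u0 - d) (r - u0 + d) := sq_nonneg _
  have hA : minSq (l - u0 - d) (r - u0 + d) ≤ x ^ 2 := by
    rw [minSq, ← sq_abs x]
    refine pow_le_pow_left₀ (le_max_right _ _) (max_le (max_le ?_ ?_) (abs_nonneg _)) 2
    · exact hx0.trans (le_abs_self x)
    · exact (neg_le_neg hx1).trans (neg_le_abs x)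
  have hB : x ^ 2 ≤ maxSq (l - u0 - d) (r - u0 + d) := by
    rcases le_total 0 x with h | h
    · exact (pow_le_pow_left₀ h hx1 2).trans (le_max_right _ _)
    · refine le_trans ?_ (le_max_left _ _)
      rw [← neg_sq x, ← neg_sq (l - u0 - d)]
      exact pow_le_pow_left₀ (neg_nonneg.2 h) (neg_le_neg hx0) 2
  have hden : 0 < x ^ 2 + p.im ^ 2 := by linarith [sq_nonneg x]
  constructor
  · refine le_trans (div_le_div_of_nonneg_right (sub_le_sub hY1 hA) (sq_nonneg _)) ?_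
    rcases le_total 0 ((|v0| + d) ^ 2 - minSq (l - u0 - d) (r - u0 + d)) with h | h
    · exact (div_le_div_of_nonneg_left h (by positivity)
        (pow_le_pow_left₀ (by linarith) (add_le_add hA hY0) 2)).trans (le_max_left _ _)
    · refine le_trans ?_ (le_max_right _ _)
      rw [← neg_le_neg_iff, ← neg_div, ← neg_div]
      exact div_le_div_of_nonneg_left (neg_nonneg.2 h) (by positivity)
        (pow_le_pow_left₀ hden.le (add_le_add hB hY1) 2)
  · refine le_trans ?_ (div_le_div_of_nonneg_right (sub_le_sub hY0 hB) (sq_nonneg _))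
    rcases le_total 0 ((|v0| - d) ^ 2 - maxSq (l - u0 - d) (r - u0 + d)) with h | h
    · exact (min_le_right _ _).trans (div_le_div_of_nonneg_left h (by positivity)
        (pow_le_pow_left₀ hden.le (add_le_add hB hY1) 2))
    · refine (min_le_left _ _).trans ?_
      rw [← neg_le_neg_iff, ← neg_div, ← neg_div]
      exact div_le_div_of_nonneg_left (neg_nonneg.2 h) (by positivity)
        (pow_le_pow_left₀ (by linarith) (add_le_add hA hY0) 2)

theorem kap_one {l s : ℝ} (hl : l ≤ s) (hs : s < 1) : kap 1 s ≤ -(1 / (1 - l) ^ 2) := by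
  have h : kap 1 s = -(1 / (1 - s) ^ 2) := by
    have : (s - 1) ≠ 0 := by linarith
    have : (1 - s) ≠ 0 := by linarith
    simp only [kap, one_re, one_im]
    field_simp
    ring
  rw [h, neg_le_neg_iff]
  exact one_div_le_one_div_of_le (pow_pos (by linarith) 2)
    (pow_le_pow_left₀ (by linarith) (by linarith) 2)

theorem ratio_near {c a e : ℂ} (a0 p0 : ℂ) {η δ : ℝ} (hc : ‖c - c0‖ ≤ 2e-7) (ha : ‖a - a0‖ ≤ η)
    (hδ : 0 ≤ δ) (hne : 2e-7 < |(e - c0).re|)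
    (hn : |(a0 - c0 - p0 * (e - c0)).re| + |(a0 - c0 - p0 * (e - c0)).im| +
      (|(p0 - 1).re| + |(p0 - 1).im|) * 2e-7 + η ≤ δ * (|(e - c0).re| - 2e-7)) :
    ‖(a - c) / (e - c) - p0‖ ≤ δ := by
  have hlow : |(e - c0).re| - 2e-7 ≤ ‖e - c‖ := by
    have h1 := abs_re_le_norm (e - c0)
    have h2 := norm_sub_le_norm_sub_add_norm_sub e c c0
    linarith
  have hec : e - c ≠ 0 := norm_pos_iff.1 (by linarith)
  rw [div_sub' hec, norm_div, div_le_iff₀ (norm_pos_iff.2 hec)]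
  refine le_trans ?_ (mul_le_mul_of_nonneg_left hlow hδ)
  refine le_trans ?_ hn
  have e1 : a - c - (e - c) * p0 =
      (a0 - c0 - p0 * (e - c0)) + (p0 - 1) * (c - c0) + (a - a0) := by ring
  rw [e1]
  refine (norm_add₃_le).trans (add_le_add (add_le_add (norm_le_abs_re_add_abs_im _) ?_) ha)
  rw [norm_mul]
  exact mul_le_mul (norm_le_abs_re_add_abs_im _) hc (norm_nonneg _) (by positivity)

theorem sqrt_two_near : ‖(Real.sqrt 2 : ℂ) - ⟨1.4142135624, 0⟩‖ ≤ 1e-9 ∧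
    ‖-(Real.sqrt 2 : ℂ) - ⟨-1.4142135624, 0⟩‖ ≤ 1e-9 := by
  have h : |Real.sqrt 2 - 1.4142135624| ≤ 1e-9 := by
    rw [abs_le]
    have a : (1.4142135614 : ℝ) ≤ Real.sqrt 2 := Real.le_sqrt_of_sq_le (by norm_num)
    have b : Real.sqrt 2 ≤ (1.4142135634 : ℝ) := Real.sqrt_le_iff.2 ⟨by norm_num, by norm_num⟩
    norm_num at a b ⊢
    constructor <;> linarith
  have e : (⟨1.4142135624, 0⟩ : ℂ) = ((1.4142135624 : ℝ) : ℂ) := rfl
  have e' : (⟨-1.4142135624, 0⟩ : ℂ) = ((-1.4142135624 : ℝ) : ℂ) := rfl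
  constructor
  · rw [e, ← ofReal_sub, norm_real]
    exact h
  · rw [e', ← ofReal_neg, ← ofReal_sub, norm_real, Real.norm_eq_abs, neg_sub_neg, abs_sub_comm]
    exact h

theorem curvRe_eq (p : Fin 7 → ℂ) (s : ℝ) :
    curvRe p mult s = 56 * kap (p 0) s + 56 * kap (p 1) s + 92 * kap (p 2) s + 92 * kap (p 3) s
      + -74 * kap (p 4) s + -74 * kap (p 5) s + -74 * kap (p 6) s := by
  rw [curvRe, Fin.sum_univ_seven]
  simp [mult, kap]

variable {c : ℂ}

theorem boxes_two (hc : ‖c - c0‖ ≤ 2e-7) :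
    ‖pp c 2 0 - ⟨-0.731256655, -0.012111723⟩‖ ≤ 1e-5 ∧
    ‖pp c 2 1 - ⟨1.012111723, -1.731256655⟩‖ ≤ 1e-5 ∧
    ‖pp c 2 2 - ⟨0.140427534, -0.871684189⟩‖ ≤ 1e-5 ∧ pp c 2 3 = 1 ∧
    ‖pp c 2 4 - ⟨-0.719144932, -1.743368378⟩‖ ≤ 1e-5 ∧
    ‖pp c 2 5 - ⟨0.496474107, -0.510620776⟩‖ ≤ 1e-5 ∧
    ‖pp c 2 6 - ⟨-1.934763971, -2.976115981⟩‖ ≤ 1e-5 := by
  have hz : ∀ a : ℂ, ‖a - a‖ ≤ 0 := by simp
  refine ⟨ratio_near _ _ hc (hz _) ?_ ?_ ?_, ratio_near _ _ hc (hz _) ?_ ?_ ?_,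
    ratio_near _ _ hc (hz _) ?_ ?_ ?_, ?_, ratio_near _ _ hc (hz _) ?_ ?_ ?_,
    ratio_near _ _ hc sqrt_two_near.1 ?_ ?_ ?_, ratio_near _ _ hc sqrt_two_near.2 ?_ ?_ ?_⟩
  all_goals first
    | ((try simp only [pts, Matrix.cons_val, Matrix.cons_val_zero, Matrix.cons_val_one]); norm_num [c0, abs_le, abs_of_nonneg, abs_of_neg]; done)
    | skip
  have h : (2 : ℂ) - c ≠ 0 := fun h => by
    have := (abs_im_le_norm (c - c0)).trans hc
    rw [← sub_eq_zero.1 h] at this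
    norm_num [c0] at this
  exact div_self h

theorem boxes_one_add_I (hc : ‖c - c0‖ ≤ 2e-7) :
    pp c (1 + I) 0 = 1 ∧
    ‖pp c (1 + I) 1 - ⟨-1.344490189, 2.389777564⟩‖ ≤ 1e-5 ∧
    ‖pp c (1 + I) 2 - ⟨-0.172245095, 1.194888782⟩‖ ≤ 1e-5 ∧
    ‖pp c (1 + I) 3 - ⟨-1.367133877, 0.022643688⟩‖ ≤ 1e-5 ∧
    ‖pp c (1 + I) 4 - ⟨1.022643688, 2.367133877⟩‖ ≤ 1e-5 ∧
    ‖pp c (1 + I) 5 - ⟨-0.667184234, 0.709328966⟩‖ ≤ 1e-5 ∧
    ‖pp c (1 + I) 6 - ⟨2.712471609, 4.024938788⟩‖ ≤ 1e-5 := by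
  have hz : ∀ a : ℂ, ‖a - a‖ ≤ 0 := by simp
  refine ⟨?_, ratio_near _ _ hc (hz _) ?_ ?_ ?_, ratio_near _ _ hc (hz _) ?_ ?_ ?_,
    ratio_near _ _ hc (hz _) ?_ ?_ ?_, ratio_near _ _ hc (hz _) ?_ ?_ ?_,
    ratio_near _ _ hc sqrt_two_near.1 ?_ ?_ ?_, ratio_near _ _ hc sqrt_two_near.2 ?_ ?_ ?_⟩
  all_goals first
    | ((try simp only [pts, Matrix.cons_val, Matrix.cons_val_zero, Matrix.cons_val_one]); norm_num [c0, abs_le, abs_of_nonneg, abs_of_neg]; done)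
    | skip
  have h : (1 + I : ℂ) - c ≠ 0 := fun h => by
    have := (abs_im_le_norm (c - c0)).trans hc
    rw [← sub_eq_zero.1 h] at this
    norm_num [c0] at this
  exact div_self h

theorem conc_two (hc : ‖c - c0‖ ≤ 2e-7) {s : ℝ} (hs : s ∈ Ico (0 : ℝ) 1) :
    curvRe (pp c 2) mult s ≤ -2 * 1 := by
  obtain ⟨b0, b1, b2, b3, b4, b5, b6⟩ := boxes_two hc
  rw [curvRe_eq, b3]
  have key : ∀ l r : ℝ, l ≤ s → s ≤ r →
      56 * kapUp (-0.731256655) (-0.012111723) 1e-5 l r +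
        56 * kapUp 1.012111723 (-1.731256655) 1e-5 l r +
        92 * kapUp 0.140427534 (-0.871684189) 1e-5 l r + 92 * -(1 / (1 - l) ^ 2) +
        -74 * kapDown (-0.719144932) (-1.743368378) 1e-5 l r +
        -74 * kapDown 0.496474107 (-0.510620776) 1e-5 l r +
        -74 * kapDown (-1.934763971) (-2.976115981) 1e-5 l r ≤ -2 →
      56 * kap (pp c 2 0) s + 56 * kap (pp c 2 1) s + 92 * kap (pp c 2 2) s + 92 * kap 1 s +
        -74 * kap (pp c 2 4) s + -74 * kap (pp c 2 5) s + -74 * kap (pp c 2 6) s ≤ -2 * 1 := by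
    intro l r hl hr hle
    have k0 := (kap_mem _ _ b0 (by norm_num [abs_of_neg]) hl hr).1
    have k1 := (kap_mem _ _ b1 (by norm_num [abs_of_neg]) hl hr).1
    have k2 := (kap_mem _ _ b2 (by norm_num [abs_of_neg]) hl hr).1
    have k3 := kap_one hl hs.2
    have k4 := (kap_mem _ _ b4 (by norm_num [abs_of_neg]) hl hr).2
    have k5 := (kap_mem _ _ b5 (by norm_num [abs_of_neg]) hl hr).2
    have k6 := (kap_mem _ _ b6 (by norm_num [abs_of_neg]) hl hr).2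
    linarith
  rcases le_total s 0.2 with h | h
  · refine key 0 0.2 hs.1 h ?_
    norm_num [kapUp, kapDown, minSq, maxSq, abs_of_neg]
  · refine key 0.2 1 h hs.2.le ?_
    norm_num [kapUp, kapDown, minSq, maxSq, abs_of_neg]

theorem conc_one_add_I (hc : ‖c - c0‖ ≤ 2e-7) {s : ℝ} (hs : s ∈ Ico (0 : ℝ) 1) :
    curvRe (pp c (1 + I)) mult s ≤ -2 * 1 := by
  obtain ⟨b0, b1, b2, b3, b4, b5, b6⟩ := boxes_one_add_I hc
  rw [curvRe_eq, b0]
  have key : ∀ l r : ℝ, l ≤ s → s ≤ r →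
      56 * -(1 / (1 - l) ^ 2) + 56 * kapUp (-1.344490189) 2.389777564 1e-5 l r +
        92 * kapUp (-0.172245095) 1.194888782 1e-5 l r +
        92 * kapUp (-1.367133877) 0.022643688 1e-5 l r +
        -74 * kapDown 1.022643688 2.367133877 1e-5 l r +
        -74 * kapDown (-0.667184234) 0.709328966 1e-5 l r +
        -74 * kapDown 2.712471609 4.024938788 1e-5 l r ≤ -2 →
      56 * kap 1 s + 56 * kap (pp c (1 + I) 1) s + 92 * kap (pp c (1 + I) 2) s +
        92 * kap (pp c (1 + I) 3) s + -74 * kap (pp c (1 + I) 4) s +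
        -74 * kap (pp c (1 + I) 5) s + -74 * kap (pp c (1 + I) 6) s ≤ -2 * 1 := by
    intro l r hl hr hle
    have k0 := kap_one hl hs.2
    have k1 := (kap_mem _ _ b1 (by norm_num [abs_of_pos]) hl hr).1
    have k2 := (kap_mem _ _ b2 (by norm_num [abs_of_pos]) hl hr).1
    have k3 := (kap_mem _ _ b3 (by norm_num [abs_of_pos]) hl hr).1
    have k4 := (kap_mem _ _ b4 (by norm_num [abs_of_pos]) hl hr).2
    have k5 := (kap_mem _ _ b5 (by norm_num [abs_of_pos]) hl hr).2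
    have k6 := (kap_mem _ _ b6 (by norm_num [abs_of_pos]) hl hr).2
    linarith
  rcases le_total s 0.18 with h | h
  · refine key 0 0.18 hs.1 h ?_
    norm_num [kapUp, kapDown, minSq, maxSq, abs_of_pos]
  rcases le_total s 0.5 with h' | h'
  · refine key 0.18 0.5 h h' ?_
    norm_num [kapUp, kapDown, minSq, maxSq, abs_of_pos]
  · refine key 0.5 1 h' hs.2.le ?_
    norm_num [kapUp, kapDown, minSq, maxSq, abs_of_pos]

end Vale.Agent.P021Pi.Analytic
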