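import Vale.Agent.P021Pi.Analytic.Profile

/-!
# P021: Laplace's method on a segment issued from a saddle
-/

namespace Vale.Agent.P021Pi.Analytic

open Set Filter MeasureTheory Topology

variable {ι : Type*} [Fintype ι] {p : ι → ℂ} {m : ι → ℤ} {μ : ℝ}

/-- The second order expansion at the saddle. -/
theorem Good.expansion (h : Good p m μ) {ε : ℝ} (hε : 0 < ε) :
    ∃ δ > 0, ∀ s ∈ Icc (0 : ℝ) δ, ‖nrm p m s - 1 - rate p m 0 / 2 * (s : ℂ) ^ 2‖ ≤ ε * s ^ 2 := by
  set φ : ℝ → ℂ := fun s => nrm p m s - 1 - rate p m 0 / 2 * (s : ℂ) ^ 2 with hφ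
  set φ' : ℝ → ℂ := fun s => (s : ℂ) * (nrm p m s * rate p m s - rate p m 0) with hφ'
  have hd : ∀ s < (1 : ℝ), HasDerivAt φ (φ' s) s := by
    intro s hs
    have h2 : HasDerivAt (fun s : ℝ => (s : ℂ) ^ 2) (2 * (s : ℂ)) s := by
      simpa using (Complex.ofRealCLM.hasDerivAt (x := s)).fun_pow 2
    refine (((h.hasDerivAt hs).sub_const 1).sub (h2.const_mul (rate p m 0 / 2))).congr_deriv ?_
    rw [hφ']
    ring
  have hc : ContinuousAt (fun s => nrm p m s * rate p m s - rate p m 0) 0 :=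
    ((h.hasDerivAt zero_lt_one).continuousAt.mul (h.continuousAt_rate zero_lt_one)).sub
      continuousAt_const
  obtain ⟨δ, hδ, hδε⟩ := Metric.continuousAt_iff.1 hc ε hε
  refine ⟨min (δ / 2) (1 / 2), by positivity, fun s hs => ?_⟩
  have hs1 : s ≤ 1 / 2 := hs.2.trans (min_le_right _ _)
  have hs2 : s ≤ δ / 2 := hs.2.trans (min_le_left _ _)
  have hmv := (convex_Icc (0 : ℝ) s).norm_image_sub_le_of_norm_hasDerivWithin_le
    (f := φ) (f' := φ') (C := ε * s)
    (fun x hx => (hd x (by linarith [hx.2])).hasDerivWithinAt) (fun x hx => ?_)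
    (left_mem_Icc.2 hs.1) (right_mem_Icc.2 hs.1)
  · have h0 : φ 0 = 0 := by simp [hφ, h.nrm_zero]
    rw [h0, sub_zero, sub_zero, Real.norm_of_nonneg hs.1] at hmv
    change ‖φ s‖ ≤ _
    rw [sq, ← mul_assoc]
    exact hmv
  · have hlt : dist x 0 < δ := by
      rw [Real.dist_eq, sub_zero, abs_of_nonneg hx.1]
      linarith [hx.2]
    have h2 := (hδε hlt).le
    rw [dist_eq_norm, h.nrm_zero, one_mul, sub_self, sub_zero] at h2
    rw [hφ', norm_mul, Complex.norm_real, Real.norm_of_nonneg hx.1, mul_comm ε]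
    exact mul_le_mul hx.2 h2 (norm_nonneg _) hs.1

/-- The pointwise limit in the scaled variable. -/
theorem Good.tendsto_pow (h : Good p m μ) {u : ℝ} (hu : 0 ≤ u) :
    Tendsto (fun n : ℕ => nrm p m (u / Real.sqrt n) ^ n) atTop
      (𝓝 (Complex.exp (rate p m 0 / 2 * (u : ℂ) ^ 2))) := by
  have h0 : Tendsto (fun n : ℕ => u / Real.sqrt n) atTop (𝓝 0) :=
    Tendsto.div_atTop tendsto_const_nhds
      (Real.tendsto_sqrt_atTop.comp tendsto_natCast_atTop_atTop)
  have := Complex.tendsto_one_add_pow_exp_of_tendsto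
    (g := fun n : ℕ => nrm p m (u / Real.sqrt n) - 1) (t := rate p m 0 / 2 * (u : ℂ) ^ 2) ?_
  · simpa using this
  rw [Metric.tendsto_atTop]
  intro ε hε
  obtain ⟨δ, hδ, hb⟩ := h.expansion (div_pos hε (show (0 : ℝ) < u ^ 2 + 1 by positivity))
  obtain ⟨N, hN⟩ := eventually_atTop.1 ((h0.eventually (eventually_le_nhds hδ)).and
    (eventually_ge_atTop 1))
  refine ⟨N, fun n hn => ?_⟩
  obtain ⟨hs, hn1⟩ := hN n hn
  have hn0 : (0 : ℝ) < n := by exact_mod_cast hn1
  have hb' := hb _ ⟨by positivity, hs⟩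
  have hsq : (u / Real.sqrt n) ^ 2 = u ^ 2 / n := by rw [div_pow, Real.sq_sqrt hn0.le]
  rw [← Complex.ofReal_pow, hsq] at hb'
  rw [dist_eq_norm]
  have heq : (n : ℂ) * (nrm p m (u / Real.sqrt n) - 1) - rate p m 0 / 2 * (u : ℂ) ^ 2 =
      (n : ℂ) * (nrm p m (u / Real.sqrt n) - 1 -
        rate p m 0 / 2 * ((u ^ 2 / n : ℝ) : ℂ)) := by
    push_cast
    have : (n : ℂ) ≠ 0 := by exact_mod_cast hn0.ne'
    field_simp
  rw [heq, norm_mul, Complex.norm_natCast]
  refine lt_of_le_of_lt (mul_le_mul_of_nonneg_left hb' hn0.le) ?_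
  have : (n : ℝ) * (ε / (u ^ 2 + 1) * (u ^ 2 / n)) = ε * (u ^ 2 / (u ^ 2 + 1)) := by field_simp
  rw [this]
  exact mul_lt_of_lt_one_right hε (by rw [div_lt_one (by positivity)]; linarith)

/-- Laplace's method: the limit of `√n ∫₀¹ nrmⁿ ψ`. -/
theorem Good.tendsto_integral (h : Good p m μ) {ψ : ℝ → ℂ} (hψ : ContinuousOn ψ (Icc 0 1)) :
    Tendsto (fun n : ℕ => (Real.sqrt n : ℂ) * ∫ s in (0 : ℝ)..1, nrm p m s ^ n * ψ s) atTop
      (𝓝 (ψ 0 * (((Real.pi : ℂ) / (-(rate p m 0) / 2)) ^ (1 / 2 : ℂ) / 2))) := by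
  obtain ⟨M, hM⟩ := isCompact_Icc.exists_bound_of_continuousOn hψ
  set b : ℂ := -(rate p m 0) / 2 with hb
  have hbre : 0 < b.re := by
    have := h.re_rate_zero_neg
    simp only [hb, Complex.div_ofNat_re, Complex.neg_re]
    linarith
  set F : ℕ → ℝ → ℂ := fun n => (Ioc (0 : ℝ) (Real.sqrt n)).indicator fun u =>
    nrm p m (u / Real.sqrt n) ^ n * ψ (u / Real.sqrt n) with hF
  have hint : ∀ᶠ n : ℕ in atTop,
      (Real.sqrt n : ℂ) * ∫ s in (0 : ℝ)..1, nrm p m s ^ n * ψ s = ∫ u in Ioi 0, F n u := by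
    filter_upwards [eventually_ge_atTop 1] with n hn
    have hs : 0 < Real.sqrt n := Real.sqrt_pos.2 (by exact_mod_cast hn)
    rw [hF, setIntegral_indicator measurableSet_Ioc, inter_eq_right.2 Ioc_subset_Ioi_self,
      ← intervalIntegral.integral_of_le hs.le,
      intervalIntegral.integral_comp_div (fun x => nrm p m x ^ n * ψ x) hs.ne', zero_div,
      div_self hs.ne', Complex.real_smul]
  refine Tendsto.congr' (EventuallyEq.symm hint) ?_
  rw [← integral_gaussian_complex_Ioi hbre, ← integral_const_mul]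
  refine tendsto_integral_filter_of_dominated_convergence
    (fun u => Real.exp (-μ * u ^ 2) * M) ?_ ?_ ?_ ?_
  · refine Eventually.of_forall fun n => ?_
    rw [aestronglyMeasurable_indicator_iff measurableSet_Ioc, Measure.restrict_restrict
      measurableSet_Ioc, inter_eq_left.2 Ioc_subset_Ioi_self]
    refine ContinuousOn.aestronglyMeasurable ?_ measurableSet_Ioc
    have hmap : MapsTo (fun u => u / Real.sqrt n) (Ioc 0 (Real.sqrt n)) (Icc 0 1) := fun u hu =>
      ⟨div_nonneg hu.1.le (Real.sqrt_nonneg _), div_le_one_of_le₀ hu.2 (Real.sqrt_nonneg _)⟩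
    exact ((h.continuousOn.comp (by fun_prop) hmap).pow n).mul
      (hψ.comp (by fun_prop) hmap)
  · refine Eventually.of_forall fun n => ?_
    filter_upwards [ae_restrict_mem measurableSet_Ioi] with u hu
    have hM0 : 0 ≤ M := (norm_nonneg _).trans (hM 0 (by simp))
    by_cases hmem : u ∈ Ioc (0 : ℝ) (Real.sqrt n)
    · have hs : u / Real.sqrt n ∈ Icc (0 : ℝ) 1 :=
        ⟨div_nonneg hmem.1.le (Real.sqrt_nonneg _), div_le_one_of_le₀ hmem.2 (Real.sqrt_nonneg _)⟩
      rw [hF]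
      simp only [indicator_of_mem hmem, norm_mul, norm_pow]
      refine mul_le_mul ?_ (hM _ hs) (norm_nonneg _) (Real.exp_pos _).le
      refine (pow_le_pow_left₀ (norm_nonneg _) (h.norm_le hs) n).trans_eq ?_
      rw [← Real.exp_nat_mul]
      congr 1
      have hn : (0 : ℝ) < n := Real.sqrt_pos.1 (lt_of_lt_of_le hmem.1 hmem.2)
      rw [div_pow, Real.sq_sqrt hn.le]
      field_simp
    · rw [hF]
      simp only [indicator_of_notMem hmem, norm_zero]
      positivity
  · exact ((integrable_exp_neg_mul_sq h.pos).mul_const M).integrableOn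
  · filter_upwards [ae_restrict_mem measurableSet_Ioi] with u hu
    have h0 : Tendsto (fun n : ℕ => u / Real.sqrt n) atTop (𝓝[Icc 0 1] 0) := by
      refine tendsto_nhdsWithin_iff.2 ⟨Tendsto.div_atTop tendsto_const_nhds
        (Real.tendsto_sqrt_atTop.comp tendsto_natCast_atTop_atTop), ?_⟩
      filter_upwards [(Real.tendsto_sqrt_atTop.comp tendsto_natCast_atTop_atTop).eventually
        (eventually_ge_atTop u)] with n hn
      exact ⟨div_nonneg (le_of_lt hu) (Real.sqrt_nonneg _),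
        div_le_one_of_le₀ hn (Real.sqrt_nonneg _)⟩
    have hψ0 := (hψ 0 (by simp)).tendsto.comp h0
    have hlim := (h.tendsto_pow (le_of_lt hu)).mul hψ0
    rw [show ψ 0 * Complex.exp (-b * (u : ℂ) ^ 2) =
      Complex.exp (rate p m 0 / 2 * (u : ℂ) ^ 2) * ψ 0 by rw [hb, mul_comm]; congr 2; ring]
    refine hlim.congr' ?_
    filter_upwards [(Real.tendsto_sqrt_atTop.comp tendsto_natCast_atTop_atTop).eventually
      (eventually_ge_atTop u)] with n hn
    rw [hF]
    simp only [indicator_of_mem (show u ∈ Ioc (0 : ℝ) (Real.sqrt n) from ⟨hu, hn⟩),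
      Function.comp_apply]

/-- The uniform bound. -/
theorem Good.norm_integral_le (h : Good p m μ) {ψ : ℝ → ℂ} (hψ : ContinuousOn ψ (Icc 0 1)) :
    ∃ M, ∀ n : ℕ, ‖∫ s in (0 : ℝ)..1, nrm p m s ^ n * ψ s‖ ≤ M := by
  obtain ⟨M, hM⟩ := isCompact_Icc.exists_bound_of_continuousOn hψ
  refine ⟨M, fun n => ?_⟩
  have := intervalIntegral.norm_integral_le_of_norm_le_const
    (a := (0 : ℝ)) (b := 1) (f := fun s => nrm p m s ^ n * ψ s) (C := M) fun s hs => ?_
  · simpa using this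
  rw [uIoc_of_le zero_le_one] at hs
  have hs' : s ∈ Icc (0 : ℝ) 1 := Ioc_subset_Icc_self hs
  rw [norm_mul, norm_pow]
  refine le_trans (mul_le_of_le_one_left (norm_nonneg _) ?_) (hM s hs')
  refine pow_le_one₀ (norm_nonneg _) ((h.norm_le hs').trans (Real.exp_le_one_iff.2 ?_))
  have := h.pos
  nlinarith [sq_nonneg s]

end Vale.Agent.P021Pi.Analytic
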