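import Vale.Agent.P021Pi.Analytic.Saddle

/-!
# P021: the value of the integrand at the saddle

Exact Gaussian integer arithmetic on approximations of the four factors.
-/

namespace Vale.Agent.P021Pi.Analytic

open Complex

/-- The integrand without the factor `1 / z`, for exponents `(56, 92, 74)`. -/
noncomputable def phi (z : ℂ) : ℂ :=
  (z ^ 2 - 2 * z + 2) ^ 56 * ((z - 1) * (z - 2)) ^ 92 / (z ^ 74 * (z ^ 2 - 2) ^ 74)

/-- Gaussian integers as pairs. -/
def gmul (a b : ℤ × ℤ) : ℤ × ℤ := (a.1 * b.1 - a.2 * b.2, a.1 * b.2 + a.2 * b.1)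

/-- Powers of pairs. -/
def gpow (a : ℤ × ℤ) : ℕ → ℤ × ℤ
  | 0 => (1, 0)
  | n + 1 => gmul (gpow a n) a

/-- The norm of a pair. -/
def gnorm (a : ℤ × ℤ) : ℤ := a.1 * a.1 + a.2 * a.2

/-- The complex number of a pair. -/
noncomputable def toC (a : ℤ × ℤ) : ℂ := ⟨(a.1 : ℝ), (a.2 : ℝ)⟩

theorem toC_gmul (a b : ℤ × ℤ) : toC (gmul a b) = toC a * toC b := by
  apply Complex.ext <;> simp [toC, gmul]

theorem toC_gpow (a : ℤ × ℤ) (n : ℕ) : toC (gpow a n) = toC a ^ n := by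
  induction n with
  | zero => apply Complex.ext <;> simp [toC, gpow]
  | succ n ih => rw [gpow, toC_gmul, ih, pow_succ]

theorem norm_toC_sq (a : ℤ × ℤ) : ‖toC a‖ ^ 2 = (gnorm a : ℝ) := by
  rw [Complex.sq_norm, Complex.normSq_apply]
  simp [toC, gnorm]

/-- `x` is close to `y` in the relative sense. -/
def Near (e : ℝ) (x y : ℂ) : Prop := ‖x - y‖ ≤ e * ‖y‖

theorem Near.mul {e f : ℝ} {x y x' y' : ℂ} (h : Near e x y)
    (h' : Near f x' y') : Near ((1 + e) * (1 + f) - 1) (x * x') (y * y') := by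
  unfold Near at *
  have hx' : ‖x'‖ ≤ (1 + f) * ‖y'‖ := by
    have := norm_le_norm_add_norm_sub' x' y'
    nlinarith [norm_nonneg (x' - y')]
  calc ‖x * x' - y * y'‖ = ‖(x - y) * x' + y * (x' - y')‖ := by ring_nf
    _ ≤ ‖x - y‖ * ‖x'‖ + ‖y‖ * ‖x' - y'‖ := by
      refine (norm_add_le _ _).trans ?_
      rw [norm_mul, norm_mul]
    _ ≤ e * ‖y‖ * ((1 + f) * ‖y'‖) + ‖y‖ * (f * ‖y'‖) :=
      add_le_add (mul_le_mul h hx' (norm_nonneg _) ((norm_nonneg _).trans h))
        (mul_le_mul_of_nonneg_left h' (norm_nonneg _))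
    _ = _ := by rw [norm_mul]; ring

theorem Near.pow {e : ℝ} (he : 0 ≤ e) {x y : ℂ} (h : Near e x y) :
    ∀ n : ℕ, Near ((1 + e) ^ n - 1) (x ^ n) (y ^ n)
  | 0 => by simp [Near]
  | n + 1 => by
    have := (Near.pow he h n).mul h
    rw [pow_succ x, pow_succ y]
    convert this using 1
    rw [pow_succ]
    ring

theorem Near.div {e : ℝ} (he : e < 1) {x y x' y' : ℂ} (hy' : y' ≠ 0)
    (h : Near e x y) (h' : Near e x' y') : Near (2 * e / (1 - e)) (x / x') (y / y') := by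
  unfold Near at *
  have he0 : 0 ≤ e := by
    by_contra hn
    have := norm_nonneg (x' - y')
    have := norm_pos_iff.2 hy'
    nlinarith
  have hlow : (1 - e) * ‖y'‖ ≤ ‖x'‖ := by
    have := norm_le_norm_add_norm_sub x' y'
    linarith
  have hpos : 0 < (1 - e) * ‖y'‖ := mul_pos (by linarith) (norm_pos_iff.2 hy')
  have hx' : x' ≠ 0 := norm_pos_iff.1 (lt_of_lt_of_le hpos hlow)
  rw [div_sub_div _ _ hx' hy', norm_div, norm_div, norm_mul, div_le_iff₀
    (mul_pos (norm_pos_iff.2 hx') (norm_pos_iff.2 hy'))]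
  calc ‖x * y' - x' * y‖ = ‖(x - y) * y' - y * (x' - y')‖ := by ring_nf
    _ ≤ ‖x - y‖ * ‖y'‖ + ‖y‖ * ‖x' - y'‖ := by
      refine (norm_sub_le _ _).trans ?_
      rw [norm_mul, norm_mul]
    _ ≤ e * ‖y‖ * ‖y'‖ + ‖y‖ * (e * ‖y'‖) :=
      add_le_add (mul_le_mul_of_nonneg_right h (norm_nonneg _))
        (mul_le_mul_of_nonneg_left h' (norm_nonneg _))
    _ = 2 * e / (1 - e) * (‖y‖ / ‖y'‖) * (((1 - e) * ‖y'‖) * ‖y'‖) := by
      have : ‖y'‖ ≠ 0 := (norm_pos_iff.2 hy').ne'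
      have : (1 - e) ≠ 0 := by linarith
      field_simp
      ring
    _ ≤ _ := by
      refine mul_le_mul_of_nonneg_left (mul_le_mul_of_nonneg_right hlow (norm_nonneg _)) ?_
      have : 0 < 1 - e := by linarith
      positivity

/-- Numerators of the approximations, scaled by `10 ^ 8`. -/
def numGauss : ℤ × ℤ :=
  gmul (gpow (84357229, 49607472) 56) (gpow (-58288162, -8555287) 92)

/-- Denominators of the approximations, scaled by `10 ^ 8`. -/
def denGauss : ℤ × ℤ :=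
  gmul (gpow (142645391, 58162759) 74) (gpow (-30351990, 165932989) 74)

theorem gauss_facts :
    0 < gnorm denGauss ∧
    ((numGauss.2 * denGauss.1 - numGauss.1 * denGauss.2) ^ 2 * 4 ≥
      gnorm numGauss * gnorm denGauss) ∧
    (gnorm denGauss * 10000000000 ^ 241 * 6000000 * 100000000 <
      9998 ^ 2 * gnorm numGauss * 27182818283 ^ 241 * 6711000) ∧
    (10002 ^ 2 * gnorm numGauss * 27182818286 ^ 241 * 1116350 <
      gnorm denGauss * 10000000000 ^ 241 * 1000000 * 100000000) := by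
  decide +kernel

/-- The approximation of `phi` at the saddle. -/
noncomputable def phi0 : ℂ := toC numGauss / toC denGauss

theorem near_factor {c x k : ℂ} (a : ℤ × ℤ) (y : ℂ) (K : ℝ) (hc : ‖c - c0‖ ≤ 2e-7)
    (hx : x - y = (c - c0) * k) (hk : |k.re| + |k.im| ≤ K)
    (hy : 2e-7 * K + (|y.re - (a.1 : ℝ) / 10 ^ 8| + |y.im - (a.2 : ℝ) / 10 ^ 8|) ≤
      6e-7 * max (|(a.1 : ℝ)| / 10 ^ 8) (|(a.2 : ℝ)| / 10 ^ 8)) :
    Near 6e-7 x (toC a / 10 ^ 8) := by
  have e : toC a / 10 ^ 8 = (⟨(a.1 : ℝ) / 10 ^ 8, (a.2 : ℝ) / 10 ^ 8⟩ : ℂ) := by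
    apply Complex.ext <;> norm_num [toC, Complex.div_ofNat_re, Complex.div_ofNat_im]
  rw [Near, e]
  refine le_trans ?_ (mul_le_mul_of_nonneg_left (max_le (?_ : |(a.1 : ℝ)| / 10 ^ 8 ≤ _) (?_ : |(a.2 : ℝ)| / 10 ^ 8 ≤ _))
    (by norm_num))
  · refine le_trans ?_ hy
    refine (norm_sub_le_norm_sub_add_norm_sub x y _).trans (add_le_add ?_ ?_)
    · rw [hx, norm_mul]
      exact mul_le_mul hc ((norm_le_abs_re_add_abs_im k).trans hk) (norm_nonneg _) (by norm_num)
    · exact norm_le_abs_re_add_abs_im _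
  · refine le_trans (le_of_eq ?_) (abs_re_le_norm _)
    rw [abs_div, abs_of_pos (show (0 : ℝ) < 10 ^ 8 by norm_num)]
  · refine le_trans (le_of_eq ?_) (abs_im_le_norm _)
    rw [abs_div, abs_of_pos (show (0 : ℝ) < 10 ^ 8 by norm_num)]

theorem near_phi {c : ℂ} (hc : ‖c - c0‖ ≤ 2e-7) : Near 2e-4 (phi c) phi0 := by
  have hr := (abs_re_le_norm (c - c0)).trans hc
  have hi := (abs_im_le_norm (c - c0)).trans hc
  simp only [c0, sub_re, sub_im, abs_le] at hr hi
  norm_num at hr hi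
  obtain ⟨hr0, hr1⟩ := hr
  obtain ⟨hi0, hi1⟩ := hi
  have hA : Near 6e-7 (c ^ 2 - 2 * c + 2) (toC (84357229, 49607472) / 10 ^ 8) :=
    near_factor _ (c0 ^ 2 - 2 * c0 + 2) 2.017 hc (k := c + c0 - 2) (by ring)
      (by simp [c0]; norm_num; rw [abs_of_pos (by linarith), abs_of_pos (by linarith)]; linarith)
      (by simp [c0, sq]; norm_num [abs_of_nonneg, abs_of_neg])
  have hB : Near 6e-7 ((c - 1) * (c - 2)) (toC (-58288162, -8555287) / 10 ^ 8) :=
    near_factor _ ((c0 - 1) * (c0 - 2)) 1.312 hc (k := c + c0 - 3) (by ring)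
      (by simp [c0]; norm_num; rw [abs_of_neg (by linarith), abs_of_pos (by linarith)]; linarith)
      (by simp [c0]; norm_num [abs_of_nonneg, abs_of_neg])
  have hC : Near 6e-7 c (toC (142645391, 58162759) / 10 ^ 8) :=
    near_factor _ c0 1 hc (k := 1) (by ring) (by simp) (by simp [c0]; norm_num [abs_of_neg])
  have hE : Near 6e-7 (c ^ 2 - 2) (toC (-30351990, 165932989) / 10 ^ 8) :=
    near_factor _ (c0 ^ 2 - 2) 4.017 hc (k := c + c0) (by ring)
      (by simp [c0]; norm_num; rw [abs_of_pos (by linarith), abs_of_pos (by linarith)]; linarith)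
      (by simp [c0, sq]; norm_num [abs_of_nonneg, abs_of_neg])
  have he : (0 : ℝ) ≤ 6e-7 := by norm_num
  have hN := (hA.pow he 56).mul (hB.pow he 92)
  have hD := (hC.pow he 74).mul (hE.pow he 74)
  rw [show ((1 + ((1 + 6e-7 : ℝ) ^ 56 - 1)) * (1 + ((1 + 6e-7) ^ 92 - 1)) - 1) =
    (1 + 6e-7) ^ 148 - 1 by ring] at hN
  rw [show ((1 + ((1 + 6e-7 : ℝ) ^ 74 - 1)) * (1 + ((1 + 6e-7) ^ 74 - 1)) - 1) =
    (1 + 6e-7) ^ 148 - 1 by ring] at hD
  have hden : toC denGauss ≠ 0 := by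
    intro h
    have := norm_toC_sq denGauss
    rw [h, norm_zero] at this
    have h2 : (0 : ℝ) < (gnorm denGauss : ℝ) := by exact_mod_cast gauss_facts.1
    norm_num at this
    linarith
  have e1 : (toC (84357229, 49607472) / 10 ^ 8) ^ 56 * (toC (-58288162, -8555287) / 10 ^ 8) ^ 92 =
      toC numGauss / (10 ^ 8) ^ 148 := by
    rw [numGauss, toC_gmul, toC_gpow, toC_gpow, div_pow, div_pow, div_mul_div_comm, ← pow_add]
  have e2 : (toC (142645391, 58162759) / 10 ^ 8) ^ 74 * (toC (-30351990, 165932989) / 10 ^ 8) ^ 74 =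
      toC denGauss / (10 ^ 8) ^ 148 := by
    rw [denGauss, toC_gmul, toC_gpow, toC_gpow, div_pow, div_pow, div_mul_div_comm, ← pow_add]
  rw [e1] at hN
  rw [e2] at hD
  have hp : ((10 : ℂ) ^ 8) ^ 148 ≠ 0 := pow_ne_zero _ (pow_ne_zero _ (by norm_num))
  have h := Near.div (by norm_num) (div_ne_zero hden hp) hN hD
  rw [div_div_div_cancel_right₀ hp] at h
  refine h.trans (mul_le_mul_of_nonneg_right ?_ (norm_nonneg _))
  norm_num

theorem quotient_facts (a b : ℤ × ℤ) (h1 : 0 < gnorm b)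
    (h2 : (a.2 * b.1 - a.1 * b.2) ^ 2 * 4 ≥ gnorm a * gnorm b)
    (h3 : gnorm b * 10000000000 ^ 241 * 6000000 * 100000000 <
      9998 ^ 2 * gnorm a * 27182818283 ^ 241 * 6711000)
    (h4 : 10002 ^ 2 * gnorm a * 27182818286 ^ 241 * 1116350 <
      gnorm b * 10000000000 ^ 241 * 1000000 * 100000000) :
    toC a / toC b ≠ 0 ∧ ‖toC a / toC b‖ ≤ 2 * |(toC a / toC b).im| ∧
      Real.exp (2 * -120.556) < (9998 / 10000) ^ 2 * ‖toC a / toC b‖ ^ 2 ∧
      (10002 / 10000) ^ 2 * ‖toC a / toC b‖ ^ 2 < Real.exp (2 * -120.555) := by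
  have h3' : ((gnorm b * 10000000000 ^ 241 * 6000000 * 100000000 : ℤ) : ℝ) <
      ((9998 ^ 2 * gnorm a * 27182818283 ^ 241 * 6711000 : ℤ) : ℝ) := by exact_mod_cast h3
  have h4' : ((10002 ^ 2 * gnorm a * 27182818286 ^ 241 * 1116350 : ℤ) : ℝ) <
      ((gnorm b * 10000000000 ^ 241 * 1000000 * 100000000 : ℤ) : ℝ) := by exact_mod_cast h4
  have h2' : (((a.2 * b.1 - a.1 * b.2) ^ 2 * 4 : ℤ) : ℝ) ≥
      ((gnorm a * gnorm b : ℤ) : ℝ) := by exact_mod_cast h2
  have h1' : (0 : ℝ) < (gnorm b : ℝ) := by exact_mod_cast h1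
  simp only [Int.cast_mul, Int.cast_pow, Int.cast_ofNat, Int.cast_sub] at h2' h3' h4'
  have hsq : ‖(toC a / toC b)‖ ^ 2 = (gnorm a : ℝ) / (gnorm b : ℝ) := by
    rw [norm_div, div_pow, norm_toC_sq, norm_toC_sq]
  have hpos : 0 < (9998 / 10000) ^ 2 * ‖(toC a / toC b)‖ ^ 2 := by
    rw [hsq]
    have : 0 < (gnorm a : ℝ) := by
      by_contra hn
      have : (0 : ℝ) < (10000000000 : ℝ) ^ 241 := by positivity
      have hl : 0 ≤ (gnorm b : ℝ) * 10000000000 ^ 241 * 6000000 * 100000000 := by positivity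
      have hr : (9998 : ℝ) ^ 2 * (gnorm a : ℝ) * 27182818283 ^ 241 * 6711000 ≤ 0 := by
        have : 0 ≤ (27182818283 : ℝ) ^ 241 * 6711000 := by positivity
        have h9 : (9998 : ℝ) ^ 2 * (gnorm a : ℝ) ≤ 0 :=
          mul_nonpos_of_nonneg_of_nonpos (by norm_num) (not_lt.1 hn)
        rw [mul_assoc (_ * (gnorm a : ℝ))]
        exact mul_nonpos_of_nonpos_of_nonneg h9 this
      linarith
    positivity
  have hne : (toC a / toC b) ≠ 0 := by
    intro h
    rw [h, norm_zero] at hpos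
    norm_num at hpos
  have e241 : ∀ x : ℝ, Real.exp (241 + x) = Real.exp 1 ^ 241 * Real.exp x := fun x => by
    rw [Real.exp_add, ← Real.exp_nat_mul]
    norm_num
  refine ⟨hne, ?_, ?_, ?_⟩
  · have him : (toC a / toC b).im = ((a.2 : ℝ) * b.1 - a.1 * b.2) /
        (gnorm b : ℝ) := by
      rw [Complex.div_im, Complex.normSq_apply]
      simp only [toC, gnorm]
      push_cast
      rw [← sub_div]
    refine abs_le_of_sq_le_sq' ?_ (by positivity) |>.2
    rw [hsq, mul_pow, sq_abs, him, div_pow, ← mul_div_assoc, div_le_div_iff₀ h1' (by positivity)]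
    nlinarith [h2', h1']
  · have hS : (6711000 : ℝ) / 6000000 ≤ Real.exp 0.112 := by
      refine le_trans ?_ (Real.sum_le_exp_of_nonneg (by norm_num) 4)
      norm_num [Finset.sum_range_succ, Nat.factorial]
    have hE : (27182818283 / 10000000000 : ℝ) ^ 241 * (6711000 / 6000000) ≤
        Real.exp (241 + 0.112) := by
      rw [e241]
      refine mul_le_mul (pow_le_pow_left₀ (by norm_num) ?_ _) hS (by norm_num) (by positivity)
      have := Real.exp_one_gt_d9
      norm_num at this ⊢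
      linarith
    rw [show 2 * (-120.556 : ℝ) = -(241 + 0.112) by norm_num, Real.exp_neg]
    refine lt_of_le_of_lt (inv_anti₀ (mul_pos (pow_pos (by norm_num) _) (by norm_num)) hE) ?_
    rw [hsq, inv_eq_one_div, div_pow, div_mul_div_comm, div_pow, div_mul_div_comm, div_div_eq_mul_div,
      div_lt_div_iff₀ (mul_pos (pow_pos (by norm_num) _) (by norm_num)) (mul_pos (by norm_num) h1')]
    linear_combination h3'
  · have hS : Real.exp 0.11 ≤ 1116350 / 1000000 := by
      refine le_trans (Real.exp_bound' (by norm_num) (by norm_num) (n := 3) (by norm_num)) ?_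
      norm_num [Finset.sum_range_succ, Nat.factorial]
    have hE : Real.exp (241 + 0.11) ≤
        (27182818286 / 10000000000 : ℝ) ^ 241 * (1116350 / 1000000) := by
      rw [e241]
      refine mul_le_mul (pow_le_pow_left₀ (Real.exp_pos 1).le ?_ _) hS (Real.exp_pos _).le
        (by positivity)
      have := Real.exp_one_lt_d9
      norm_num at this ⊢
      linarith
    rw [show 2 * (-120.555 : ℝ) = -(241 + 0.11) by norm_num, Real.exp_neg]
    refine lt_of_lt_of_le ?_ (inv_anti₀ (Real.exp_pos _) hE)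
    rw [hsq, inv_eq_one_div, div_pow, div_mul_div_comm, div_pow, div_mul_div_comm, div_div_eq_mul_div,
      div_lt_div_iff₀ (mul_pos (by norm_num) h1') (mul_pos (pow_pos (by norm_num) _) (by norm_num))]
    linear_combination h4'

theorem phi0_facts :
    phi0 ≠ 0 ∧ ‖phi0‖ ≤ 2 * |phi0.im| ∧
      Real.exp (2 * -120.556) < (9998 / 10000) ^ 2 * ‖phi0‖ ^ 2 ∧
      (10002 / 10000) ^ 2 * ‖phi0‖ ^ 2 < Real.exp (2 * -120.555) :=
  quotient_facts numGauss denGauss gauss_facts.1 gauss_facts.2.1 gauss_facts.2.2.1 gauss_facts.2.2.2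

/-- The size and the argument of `phi` at the saddle. -/
theorem phi_saddle {c : ℂ} (hc : ‖c - c0‖ ≤ 2e-7) :
    Real.exp (-120.556) < ‖phi c‖ ∧ ‖phi c‖ < Real.exp (-120.555) ∧ (phi c).im ≠ 0 := by
  have h : ‖phi c - phi0‖ ≤ 2e-4 * ‖phi0‖ := near_phi hc
  obtain ⟨h0, him, hlo, hhi⟩ := phi0_facts
  have hn := norm_nonneg phi0
  have hl := norm_le_norm_add_norm_sub (phi c) phi0
  have hu := norm_le_norm_add_norm_sub' (phi c) phi0
  refine ⟨?_, ?_, ?_⟩
  · refine lt_of_pow_lt_pow_left₀ 2 (norm_nonneg _) ?_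
    rw [← Real.exp_nat_mul]
    push_cast
    refine hlo.trans_le ?_
    rw [← mul_pow]
    refine pow_le_pow_left₀ (by positivity) ?_ 2
    norm_num at h ⊢
    linarith
  · refine lt_of_pow_lt_pow_left₀ 2 (Real.exp_pos _).le ?_
    rw [← Real.exp_nat_mul]
    push_cast
    refine lt_of_le_of_lt ?_ hhi
    rw [← mul_pow]
    refine pow_le_pow_left₀ (norm_nonneg _) ?_ 2
    norm_num at h ⊢
    linarith
  · intro hz
    have hd := (abs_im_le_norm (phi c - phi0)).trans h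
    rw [sub_im, hz, zero_sub, abs_neg] at hd
    have := norm_pos_iff.2 h0
    norm_num at hd
    linarith

end Vale.Agent.P021Pi.Analytic
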