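import Mathlib

/-!
# P021: a normalised product of linear factors on a segment issued from a saddle

`nrm p m s = ∏ ((s - p i) / (-p i)) ^ m i` for real `s`, with `∑ m i / p i = 0`, so that `s = 0` is
a critical point.
-/

namespace Vale.Agent.P021Pi.Analytic

open Set

variable {ι : Type*} [Fintype ι] (p : ι → ℂ) (m : ι → ℤ)

/-- The normalised product. -/
noncomputable def nrm (s : ℝ) : ℂ := ∏ i, (((s : ℂ) - p i) / (-(p i))) ^ (m i)

/-- The logarithmic derivative divided by `s`. -/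
noncomputable def rate (s : ℝ) : ℂ := ∑ i, (m i : ℂ) / (p i * ((s : ℂ) - p i))

/-- Second derivative of `log ‖nrm‖`. -/
noncomputable def curvRe (s : ℝ) : ℝ :=
  ∑ i, (m i : ℝ) * (((p i).im ^ 2 - (s - (p i).re) ^ 2) /
    ((s - (p i).re) ^ 2 + (p i).im ^ 2) ^ 2)

/-- Hypotheses on the data. -/
structure Good (μ : ℝ) : Prop where
  sep : ∀ i, p i = 1 ∧ 0 < m i ∨ (p i).im ≠ 0
  crit : ∑ i, (m i : ℂ) / p i = 0
  last : ∃ i, p i = 1 ∧ 0 < m i
  pos : 0 < μ
  conc : ∀ s ∈ Ico (0 : ℝ) 1, curvRe p m s ≤ -2 * μ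

variable {p m} {μ : ℝ}

theorem Good.sub_ne (h : Good p m μ) {s : ℝ} (hs : s < 1) (i : ι) : (s : ℂ) - p i ≠ 0 := by
  intro h0
  rw [sub_eq_zero] at h0
  rcases h.sep i with ⟨h1, -⟩ | h1
  · rw [h1] at h0
    exact hs.ne (by exact_mod_cast h0)
  · exact h1 (by rw [← h0, Complex.ofReal_im])

theorem Good.ne_zero (h : Good p m μ) (i : ι) : p i ≠ 0 := by
  intro h0
  exact h.sub_ne zero_lt_one i (by rw [h0]; simp)

theorem Good.normSq_pos (h : Good p m μ) {s : ℝ} (hs : s < 1) (i : ι) :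
    0 < (s - (p i).re) ^ 2 + (p i).im ^ 2 := by
  have := Complex.normSq_pos.2 (h.sub_ne hs i)
  simpa [Complex.normSq_apply, sq] using this

theorem Good.nrm_zero (h : Good p m μ) : nrm p m 0 = 1 :=
  Finset.prod_eq_one fun i _ => by
    rw [Complex.ofReal_zero, zero_sub, div_self (neg_ne_zero.2 (h.ne_zero i)), one_zpow]

theorem Good.nrm_one (h : Good p m μ) : nrm p m 1 = 0 := by
  obtain ⟨i, h1, h2⟩ := h.last
  refine Finset.prod_eq_zero (Finset.mem_univ i) ?_
  rw [h1, Complex.ofReal_one, sub_self, zero_div, zero_zpow _ h2.ne']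

theorem Good.continuousOn (h : Good p m μ) : ContinuousOn (nrm p m) (Icc 0 1) := by
  refine continuousOn_finsetProd _ fun i _ => ContinuousOn.zpow₀ (by fun_prop) _ fun s _ => ?_
  rcases h.sep i with ⟨-, h2⟩ | h2
  · exact Or.inr h2.le
  · refine Or.inl (div_ne_zero ?_ (neg_ne_zero.2 (h.ne_zero i)))
    intro h0
    apply h2
    rw [← sub_eq_zero.1 h0, Complex.ofReal_im]

omit [Fintype ι] in
theorem hasDerivAt_finset_prod_logDeriv (t : Finset ι) (f : ι → ℝ → ℂ) (g : ι → ℂ) (s : ℝ)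
    (hf : ∀ i, HasDerivAt (f i) (f i s * g i) s) :
    HasDerivAt (fun x => ∏ i ∈ t, f i x) ((∏ i ∈ t, f i s) * ∑ i ∈ t, g i) s := by
  classical
  induction t using Finset.induction_on with
  | empty => simpa using hasDerivAt_const s (1 : ℂ)
  | insert a t ha ih =>
    simp only [Finset.prod_insert ha, Finset.sum_insert ha]
    exact ((hf a).mul ih).congr_deriv (by ring)

theorem Good.hasDerivAt (h : Good p m μ) {s : ℝ} (hs : s < 1) :
    HasDerivAt (nrm p m) (nrm p m s * (s * rate p m s)) s := by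
  have key : ∀ i, HasDerivAt (fun x : ℝ => (((x : ℂ) - p i) / (-(p i))) ^ (m i))
      ((((s : ℂ) - p i) / (-(p i))) ^ (m i) * ((m i : ℂ) / ((s : ℂ) - p i))) s := by
    intro i
    have hne := h.sub_ne hs i
    have hp := neg_ne_zero.2 (h.ne_zero i)
    have h1 : HasDerivAt (fun x : ℝ => ((x : ℂ) - p i) / (-(p i))) (1 / (-(p i))) s :=
      ((Complex.ofRealCLM.hasDerivAt (x := s)).sub_const _).div_const _ |>.congr_deriv (by simp)
    have h2 := (hasDerivAt_zpow (m i) _ (Or.inl (div_ne_zero hne hp))).comp s h1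
    refine h2.congr_deriv ?_
    rw [zpow_sub_one₀ (div_ne_zero hne hp), inv_div]
    generalize (((s : ℂ) - p i) / -(p i)) ^ m i = Z
    field_simp [h.ne_zero i]
  refine (hasDerivAt_finset_prod_logDeriv Finset.univ _ _ s key).congr_deriv ?_
  congr 1
  rw [rate, Finset.mul_sum, ← sub_zero (∑ i, (m i : ℂ) / ((s : ℂ) - p i))]
  nth_rewrite 1 [← neg_zero, ← h.crit]
  rw [← Finset.sum_neg_distrib, ← Finset.sum_sub_distrib]
  refine Finset.sum_congr rfl fun i _ => ?_
  have := h.sub_ne hs i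
  have := h.ne_zero i
  field_simp
  ring

theorem rate_zero : rate p m 0 = -∑ i, (m i : ℂ) / p i ^ 2 := by
  rw [rate, ← Finset.sum_neg_distrib]
  refine Finset.sum_congr rfl fun i _ => ?_
  rw [Complex.ofReal_zero, zero_sub, mul_neg, div_neg, sq]

theorem re_rate_zero : (rate p m 0).re = curvRe p m 0 := by
  rw [rate, Complex.re_sum, curvRe]
  refine Finset.sum_congr rfl fun i _ => ?_
  rw [Complex.ofReal_zero, zero_sub, div_eq_mul_inv, ← Complex.ofReal_intCast, Complex.re_ofReal_mul,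
    Complex.inv_re, map_mul, Complex.normSq_neg]
  simp only [Complex.mul_re, Complex.neg_re, Complex.neg_im, Complex.normSq_apply]
  ring

theorem Good.re_rate_zero_neg (h : Good p m μ) : (rate p m 0).re < 0 := by
  have := h.conc 0 ⟨le_rfl, zero_lt_one⟩
  have := h.pos
  rw [re_rate_zero]
  linarith

theorem Good.continuousAt_rate (h : Good p m μ) {s : ℝ} (hs : s < 1) :
    ContinuousAt (rate p m) s := by
  refine tendsto_finsetSum Finset.univ fun i _ => ?_
  refine ContinuousAt.div (by fun_prop) (by fun_prop) (mul_ne_zero (h.ne_zero i) (h.sub_ne hs i))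

theorem Good.norm_eq (h : Good p m μ) {s : ℝ} (hs : s < 1) :
    ‖nrm p m s‖ = Real.exp (∑ i, (m i : ℝ) / 2 *
      (Real.log ((s - (p i).re) ^ 2 + (p i).im ^ 2) -
        Real.log ((0 - (p i).re) ^ 2 + (p i).im ^ 2))) := by
  rw [nrm, norm_prod, Real.exp_sum]
  refine Finset.prod_congr rfl fun i _ => ?_
  have hs2 := h.normSq_pos hs i
  have h02 := h.normSq_pos (s := 0) zero_lt_one i
  have hnorm : ∀ x : ℝ, ‖(x : ℂ) - p i‖ = Real.sqrt ((x - (p i).re) ^ 2 + (p i).im ^ 2) := fun x => by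
    rw [Complex.norm_def, Complex.normSq_apply]
    simp [sq]
  have hpos : 0 < Real.sqrt ((s - (p i).re) ^ 2 + (p i).im ^ 2) /
      Real.sqrt ((0 - (p i).re) ^ 2 + (p i).im ^ 2) :=
    div_pos (Real.sqrt_pos.2 hs2) (Real.sqrt_pos.2 h02)
  rw [norm_zpow, norm_div, hnorm, show -(p i) = ((0 : ℝ) : ℂ) - p i by simp, hnorm,
    ← Real.exp_log (zpow_pos hpos (m i)), Real.log_zpow,
    Real.log_div (Real.sqrt_pos.2 hs2).ne' (Real.sqrt_pos.2 h02).ne',
    Real.log_sqrt hs2.le, Real.log_sqrt h02.le]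
  congr 1
  ring

/-- The strict maximum at the saddle. -/
theorem Good.norm_le (h : Good p m μ) {s : ℝ} (hs : s ∈ Icc (0 : ℝ) 1) :
    ‖nrm p m s‖ ≤ Real.exp (-μ * s ^ 2) := by
  rcases eq_or_lt_of_le hs.2 with h1 | h1
  · rw [h1, h.nrm_one, norm_zero]
    exact (Real.exp_pos _).le
  set g : ℝ → ℝ := fun x => ∑ i, (m i : ℝ) / 2 *
    (Real.log ((x - (p i).re) ^ 2 + (p i).im ^ 2) -
      Real.log ((0 - (p i).re) ^ 2 + (p i).im ^ 2)) with hg
  set g1 : ℝ → ℝ := fun x => ∑ i, (m i : ℝ) *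
    ((x - (p i).re) / ((x - (p i).re) ^ 2 + (p i).im ^ 2)) with hg1
  have d0 : ∀ x < (1 : ℝ), HasDerivAt (fun y => g y + μ * y ^ 2) (g1 x + 2 * μ * x) x := by
    intro x hx
    refine HasDerivAt.add ?_ (((hasDerivAt_pow 2 x).const_mul μ).congr_deriv (by ring))
    refine HasDerivAt.fun_sum fun i _ => ?_
    have hne := (h.normSq_pos hx i).ne'
    have hq := (((hasDerivAt_id x).sub_const (p i).re).pow 2).add_const ((p i).im ^ 2)
    simp only [id_eq, Pi.pow_apply] at hq
    refine (((hq.log hne).sub_const _).const_mul ((m i : ℝ) / 2)).congr_deriv ?_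
    push_cast
    ring
  have d1 : ∀ x < (1 : ℝ), HasDerivAt (fun y => g1 y + 2 * μ * y)
      (curvRe p m x + 2 * μ) x := by
    intro x hx
    refine HasDerivAt.add ?_ (((hasDerivAt_id x).const_mul (2 * μ)).congr_deriv (by ring))
    refine HasDerivAt.fun_sum fun i _ => ?_
    have hne := (h.normSq_pos hx i).ne'
    have hn := (hasDerivAt_id x).sub_const (p i).re
    have hq := (hn.pow 2).add_const ((p i).im ^ 2)
    simp only [id_eq, Pi.pow_apply] at hn hq
    refine ((hn.div hq hne).const_mul (m i : ℝ)).congr_deriv ?_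
    push_cast
    ring
  have hlt : ∀ x ∈ Icc 0 s, x < 1 := fun x hx => lt_of_le_of_lt hx.2 h1
  have h00 : g1 0 = 0 := by
    have := congrArg Complex.re h.crit
    rw [Complex.re_sum, Complex.zero_re] at this
    rw [← neg_eq_zero, hg1]
    refine Eq.trans ?_ this
    rw [← Finset.sum_neg_distrib]
    refine Finset.sum_congr rfl fun i _ => ?_
    rw [div_eq_mul_inv _ (p i), ← Complex.ofReal_intCast, Complex.re_ofReal_mul, Complex.inv_re,
      Complex.normSq_apply]
    ring
  have hg1neg : ∀ x ∈ Icc 0 s, g1 x + 2 * μ * x ≤ 0 := by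
    intro x hx
    have hanti := antitoneOn_of_deriv_nonpos (convex_Icc 0 s)
      (fun y hy => (d1 y (hlt y hy)).continuousAt.continuousWithinAt)
      (fun y hy => (d1 y (hlt y (interior_subset hy))).differentiableAt.differentiableWithinAt)
      (fun y hy => by
        rw [(d1 y (hlt y (interior_subset hy))).deriv]
        have := h.conc y ⟨(interior_subset hy).1, hlt y (interior_subset hy)⟩
        linarith)
    have := hanti (left_mem_Icc.2 (hx.1.trans hx.2)) hx hx.1
    simp only [h00, mul_zero, add_zero] at this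
    exact this
  have hanti := antitoneOn_of_deriv_nonpos (convex_Icc 0 s)
      (fun y hy => (d0 y (hlt y hy)).continuousAt.continuousWithinAt)
      (fun y hy => (d0 y (hlt y (interior_subset hy))).differentiableAt.differentiableWithinAt)
      (fun y hy => by
        rw [(d0 y (hlt y (interior_subset hy))).deriv]
        exact hg1neg y (interior_subset hy))
  have hle := hanti (left_mem_Icc.2 hs.1) (right_mem_Icc.2 hs.1) hs.1
  have g0 : g 0 = 0 := Finset.sum_eq_zero fun i _ => by rw [sub_self, mul_zero]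
  simp only [g0] at hle
  rw [h.norm_eq h1]
  refine Real.exp_le_exp.2 ?_
  change g s ≤ _
  linarith [hle]

end Vale.Agent.P021Pi.Analytic
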